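import Vale.Agent.P228.MathlibUsed
import Vale.Agent.P228.Bdl.B4

/-!
# P228: the Hilbert-Smith conjecture

For every `n` and every prime `p` the group `ℤ_p` has no faithful continuous action on a connected
`n`-manifold.
-/

namespace Vale.Agent.Results.P228.HilbertSmith

universe u

theorem result : ∀ (n p : ℕ) [Fact p.Prime] (M : Type u) [TopologicalSpace M] [T2Space M]
    [SecondCountableTopology M] [ConnectedSpace M] [ChartedSpace (EuclideanSpace ℝ (Fin n)) M]
    [AddAction ℤ_[p] M] [ContinuousVAdd ℤ_[p] M], ¬ FaithfulVAdd ℤ_[p] M := by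
  intro n p _ M _ _ _ _ _ _ _
  exact Vale.Agent.P228.GR.not_faithful_of_even (fun m hm =>
    Vale.Agent.P228.Top.localNewman_of_inv p m hm (Vale.Agent.P228.Inv.invStatement hm)) n

end Vale.Agent.Results.P228.HilbertSmith
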